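import Mathlib

/-! P205: Euclidean definitions (derivatives, jets of maps into four-space, tame classes,
patterns, WKB data, core step data). -/

open scoped ContDiff InnerProductSpace Topology
open Set Filter Real

noncomputable section
namespace Vale.Agent.P205

abbrev R4 := EuclideanSpace ℝ (Fin 4)
abbrev E2 := EuclideanSpace ℝ (Fin 2)
abbrev P2 := ℝ × ℝ
abbrev P3 := P2 × ℝ
abbrev Q3 := ℝ × ℝ × ℝ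

section Deriv
variable {F : Type} [NormedAddCommGroup F] [NormedSpace ℝ F]

/-- derivative in the first coordinate `u` of the plane -/
def du (f : P2 → F) (x : P2) : F := fderiv ℝ f x (1, 0)
/-- derivative in the second coordinate `v` of the plane -/
def dv (f : P2 → F) (x : P2) : F := fderiv ℝ f x (0, 1)
/-- second derivative in the directions `X`, `Y` -/
def dd (f : P2 → F) (x X Y : P2) : F := fderiv ℝ (fun y => fderiv ℝ f y Y) x X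
def pu (f : P3 → F) (z : P3) : F := fderiv ℝ f z ((1, 0), 0)
def pv (f : P3 → F) (z : P3) : F := fderiv ℝ f z ((0, 1), 0)
def pt (f : P3 → F) (z : P3) : F := fderiv ℝ f z ((0, 0), 1)

/-- `2π`-periodic in the last variable over `U` -/
def Per (U : Set P2) (f : P3 → F) : Prop := ∀ x ∈ U, ∀ t, f (x, t + 2 * π) = f (x, t)
/-- mean over the last variable (a function that does not depend on the last variable) -/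
def tmean (f : P3 → F) (z : P3) : F := (2 * π)⁻¹ • ∫ t in (0:ℝ)..(2 * π), f (z.1, t)
def tint (f : P3 → F) (z : P3) : F := ∫ s in (0:ℝ)..z.2, (f (z.1, s) - tmean f z)
/-- the mean zero primitive of `f - tmean f` in the last variable -/
def tprim (f : P3 → F) (z : P3) : F := tint f z - tmean (tint f) z
end Deriv

section Jets
def fE (f : P2 → R4) (x : P2) : ℝ := ⟪du f x, du f x⟫_ℝ
def fF (f : P2 → R4) (x : P2) : ℝ := ⟪du f x, dv f x⟫_ℝ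
def fG (f : P2 → R4) (x : P2) : ℝ := ⟪dv f x, dv f x⟫_ℝ
/-- Gram determinant of two vectors -/
def gram2 (a b : R4) : ℝ := ⟪a, a⟫_ℝ * ⟪b, b⟫_ℝ - ⟪a, b⟫_ℝ ^ 2
/-- Gram determinant of three vectors -/
def gram3 (a b c : R4) : ℝ :=
  ⟪a, a⟫_ℝ * ⟪b, b⟫_ℝ * ⟪c, c⟫_ℝ + 2 * ⟪a, b⟫_ℝ * ⟪b, c⟫_ℝ * ⟪a, c⟫_ℝ
    - ⟪a, a⟫_ℝ * ⟪b, c⟫_ℝ ^ 2 - ⟪b, b⟫_ℝ * ⟪a, c⟫_ℝ ^ 2 - ⟪c, c⟫_ℝ * ⟪a, b⟫_ℝ ^ 2
/-- component of `ξ` orthogonal to `a` and `b` (when `gram2 a b ≠ 0`) -/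
def perp (a b ξ : R4) : R4 :=
  ξ - ((⟪b, b⟫_ℝ * ⟪ξ, a⟫_ℝ - ⟪a, b⟫_ℝ * ⟪ξ, b⟫_ℝ) / gram2 a b) • a
    - ((⟪a, a⟫_ℝ * ⟪ξ, b⟫_ℝ - ⟪a, b⟫_ℝ * ⟪ξ, a⟫_ℝ) / gram2 a b) • b
/-- vector product of three vectors of four-space -/
def cross3 (a b c : R4) : R4 :=
  !₂[-(a 1 * (b 2 * c 3 - b 3 * c 2) - a 2 * (b 1 * c 3 - b 3 * c 1) + a 3 * (b 1 * c 2 - b 2 * c 1)),
     a 0 * (b 2 * c 3 - b 3 * c 2) - a 2 * (b 0 * c 3 - b 3 * c 0) + a 3 * (b 0 * c 2 - b 2 * c 0),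
     -(a 0 * (b 1 * c 3 - b 3 * c 1) - a 1 * (b 0 * c 3 - b 3 * c 0) + a 3 * (b 0 * c 1 - b 1 * c 0)),
     a 0 * (b 1 * c 2 - b 2 * c 1) - a 1 * (b 0 * c 2 - b 2 * c 0) + a 2 * (b 0 * c 1 - b 1 * c 0)]
def det2 (f : P2 → R4) (x : P2) : ℝ := gram2 (du f x) (dv f x)
/-- normal component -/
def nrm (f : P2 → R4) (x : P2) (ξ : R4) : R4 := perp (du f x) (dv f x) ξ
/-- second fundamental form -/
def II (f : P2 → R4) (x X Y : P2) : R4 := nrm f x (dd f x X Y)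
def Gram (f : P2 → R4) (x : P2) : ℝ := gram3 (du f x) (dv f x) (du (du f) x)
def G2 (f : P2 → R4) (x : P2) : ℝ := gram2 (du f x) (du (du f) x)
/-- geodesic curvature of the `u`-lines up to a positive factor -/
def kt (f : P2 → R4) (x : P2) : ℝ :=
  fE f x * ⟪du (du f) x, dv f x⟫_ℝ - fF f x * ⟪du (du f) x, du f x⟫_ℝ
def ktil (E F : P2 → ℝ) (x : P2) : ℝ := E x * (du F x - dv E x / 2) - F x * (du E x / 2)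
/-- Gauss curvature times the determinant of the metric, extrinsic form -/
def Gs (f : P2 → R4) (x : P2) : ℝ :=
  ⟪II f x (1, 0) (1, 0), II f x (0, 1) (0, 1)⟫_ℝ - ‖II f x (1, 0) (0, 1)‖ ^ 2
def tanp (E F G a1 a2 b1 b2 : ℝ) : ℝ :=
  (G * a1 * b1 - F * (a1 * b2 + a2 * b1) + E * a2 * b2) / (E * G - F ^ 2)
/-- the same, intrinsic form -/
def kap (E F G : P2 → ℝ) (x : P2) : ℝ :=
  du (dv F) x - dv (dv E) x / 2 - du (du G) x / 2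
    - tanp (E x) (F x) (G x) (du E x / 2) (du F x - dv E x / 2) (dv F x - du G x / 2) (dv G x / 2)
    + tanp (E x) (F x) (G x) (dv E x / 2) (du G x / 2) (dv E x / 2) (du G x / 2)
end Jets

section Tame
variable {E F : Type} [NormedAddCommGroup E] [NormedSpace ℝ E]
  [NormedAddCommGroup F] [NormedSpace ℝ F] {k : ℕ} {ι : Type}

/-- `f` is smooth at the points of `S` and all its iterated derivatives of order at most `n` along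
the vectors `v d` are bounded by `σ` on `S`. -/
def Bd (v : Fin k → E) (S : Set E) (σ : E → ℝ) : ℕ → (E → F) → Prop
  | 0, f => ∀ p ∈ S, ContDiffAt ℝ ∞ f p ∧ ‖f p‖ ≤ σ p
  | n + 1, f => (∀ p ∈ S, ContDiffAt ℝ ∞ f p ∧ ‖f p‖ ≤ σ p) ∧
      ∀ d, Bd v S σ n (fun p => fderiv ℝ f p (v d))

/-- a family of domains with scaled directions -/
structure Fam (ι E : Type) (k : ℕ) where
  v : ι → Fin k → E
  S : ι → Set E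

/-- tame class with weight `σ`: bounds of all orders, uniform over the family -/
def T (X : Fam ι E k) (σ : ι → E → ℝ) (f : ι → E → F) : Prop :=
  ∀ n, ∃ C : ℝ, 0 ≤ C ∧ ∀ i, Bd (X.v i) (X.S i) (fun p => C * σ i p) n (f i)

/-- positive and tame with itself as weight -/
def LT (X : Fam ι E k) (f : ι → E → ℝ) : Prop := (∀ i, ∀ p ∈ X.S i, 0 < f i p) ∧ T X f f

def fam2 (U : ι → Set P2) (Θ : ι → ℝ) : Fam ι P2 2 :=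
  ⟨fun i => ![((Θ i)⁻¹, 0), (0, (Θ i)⁻¹)], U⟩
def fam3 (U : ι → Set P2) (Θ : ι → ℝ) : Fam ι P3 3 :=
  ⟨fun i => ![(((Θ i)⁻¹, 0), 0), ((0, (Θ i)⁻¹), 0), ((0, 0), 1)], fun i => U i ×ˢ univ⟩

/-- all derivatives of `Φ` are bounded on `K` -/
def BdOn (Φ : E → F) (K : Set E) : Prop :=
  ∀ n, ∃ C : ℝ, ∀ y ∈ K, ContDiffAt ℝ ∞ Φ y ∧ ‖iteratedFDeriv ℝ n Φ y‖ ≤ C
end Tame

section Pattern
/-- `sin (w x) / w` -/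
def sn (w x : ℝ) : ℝ := x * sinc (w * x)
/-- `(1 - cos (w x)) / w ^ 2` -/
def cn (w x : ℝ) : ℝ := x ^ 2 / 2 * sinc (w * x / 2) ^ 2

/-- parameters `(w, γ₁, γ₂)` that are surrounded by the arc of half length `w L` -/
def Om (L : ℝ) : Set Q3 :=
  {q | ∀ l : ℝ × ℝ, l ≠ 0 → ∃ σ ∈ Icc (-1 : ℝ) 1,
    0 < l.1 * (sn q.1 (L * σ) - q.2.1) + l.2 * (cn q.1 (L * σ) - q.2.2)}

/-- the universal pattern of loops, variables `(q, θ, t)` -/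
structure Pat (L : ℝ) (K : Set Q3) where
  O : Set Q3
  hO : IsOpen O
  hK : K ⊆ O
  Γ : Q3 × ℝ × ℝ → ℝ
  a : Q3 × ℝ × ℝ → ℝ
  b : Q3 × ℝ × ℝ → ℝ
  smΓ : ContDiffOn ℝ ∞ Γ (O ×ˢ univ)
  sma : ContDiffOn ℝ ∞ a (O ×ˢ univ)
  smb : ContDiffOn ℝ ∞ b (O ×ˢ univ)
  perθ : ∀ q ∈ O, ∀ θ t, Γ (q, θ + 2 * π, t) = Γ (q, θ, t) ∧ a (q, θ + 2 * π, t) = a (q, θ, t) ∧
    b (q, θ + 2 * π, t) = b (q, θ, t)
  pert : ∀ q ∈ O, ∀ θ t, Γ (q, θ, t + 2 * π) = Γ (q, θ, t) ∧ a (q, θ, t + 2 * π) = a (q, θ, t) ∧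
    b (q, θ, t + 2 * π) = b (q, θ, t)
  par : ∀ q ∈ O, ∀ θ t, Γ (q, θ, -t) = Γ (q, θ, t) ∧ a (q, θ, -t) = -a (q, θ, t) ∧
    b (q, θ, -t) = -b (q, θ, t)
  bd : ∀ q ∈ O, ∀ θ t, |Γ (q, θ, t)| ≤ L
  da : ∀ q ∈ O, ∀ θ t, HasDerivAt (fun s => a (q, θ, s)) (q.2.2 - cn q.1 (Γ (q, θ, t))) t
  db : ∀ q ∈ O, ∀ θ t, HasDerivAt (fun s => b (q, θ, s)) (sn q.1 (Γ (q, θ, t)) - q.2.1) t
  ind1 : ∀ q ∈ O, ∀ θ x y : ℝ,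
    (∀ t, x * cos (q.1 * Γ (q, θ, t)) + y * sn q.1 (Γ (q, θ, t)) = 0) → x = 0 ∧ y = 0
  ind2 : ∀ q ∈ O, ∀ θ x y : ℝ,
    (∀ t, x * (cos (q.1 * Γ (q, θ, t)) * b (q, θ, t)
              - q.1 ^ 2 * sn q.1 (Γ (q, θ, t)) * a (q, θ, t))
        + y * (cos (q.1 * Γ (q, θ, t)) * fderiv ℝ b (q, θ, t) (0, 1, 0)
              - q.1 ^ 2 * sn q.1 (Γ (q, θ, t)) * fderiv ℝ a (q, θ, t) (0, 1, 0)) = 0) →
    x = 0 ∧ y = 0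
  dbd : ∃ C : ℝ, ∀ q ∈ K, ∀ θ t : ℝ, ∀ δ : Q3 × ℝ,
    |fderiv ℝ Γ (q, θ, t) (δ.1, δ.2, 0)| ≤ C * ‖δ‖ * |fderiv ℝ Γ (q, θ, t) (0, 0, 1)|
end Pattern

section WKB
/-- graded tame class `ε ^ a Θ ^ b w ^ c` on `U × ℝ` -/
def Gr {ι F : Type} [NormedAddCommGroup F] [NormedSpace ℝ F] (U : ι → Set P2) (ε Θ : ι → ℝ)
    (w : ι → P2 → ℝ) (a b c : ℕ) (f : ι → P3 → F) : Prop :=
  T (fam3 U Θ) (fun i z => ε i ^ a * Θ i ^ b * w i z.1 ^ c) f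

def nPar (e e' : R4) (c s : ℝ) : R4 := c • e + s • e'
def nPer (e e' : R4) (c s : ℝ) : R4 := (-s) • e + c • e'

/-- data of the asymptotic expansion -/
structure WKB (ι : Type) where
  U : ι → Set P2
  ε : ι → ℝ
  Θ : ι → ℝ
  w : ι → P2 → ℝ
  f : ι → P2 → R4
  a2 : ι → P2 → ℝ
  r : ι → P2 → ℝ
  α : ι → P2 → R4
  β : ι → P2 → R4
  e : ι → P2 → R4
  e' : ι → P2 → R4
  W : ι → P3 → R4
  c : ι → P3 → ℝ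
  sh : ι → P3 → ℝ
  k : Fin 4 → ι → P3 → ℝ
  hU : ∀ i, IsOpen (U i)
  hε : ∀ i, 0 < ε i ∧ ε i ≤ 1
  hΘ : ∀ i, 1 ≤ Θ i
  hw1 : ∀ i, ∀ x ∈ U i, w i x ≤ 1
  hw : LT (fam3 U Θ) (fun i z => w i z.1)
  hf : ∀ i, ContDiffOn ℝ ∞ (f i) (U i)
  hA : Gr U ε Θ w 0 1 0 (fun i z => du (f i) z.1)
  hB : Gr U ε Θ w 0 1 0 (fun i z => dv (f i) z.1)
  hα : Gr U ε Θ w 0 1 0 (fun i z => α i z.1)
  hβ : Gr U ε Θ w 0 1 0 (fun i z => β i z.1)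
  he : Gr U ε Θ w 0 1 0 (fun i z => e i z.1)
  he' : Gr U ε Θ w 0 1 0 (fun i z => e' i z.1)
  hr0 : ∀ i, ∀ x ∈ U i, r i x ≠ 0
  hr : Gr U ε Θ w 0 1 0 (fun i z => (r i z.1)⁻¹)
  dual : ∀ i, ∀ x ∈ U i, ⟪α i x, du (f i) x⟫_ℝ = 1 ∧ ⟪α i x, du (du (f i)) x⟫_ℝ = 0 ∧
    ⟪β i x, du (f i) x⟫_ℝ = 0 ∧ ⟪β i x, du (du (f i)) x⟫_ℝ = 1
  orth : ∀ i, ∀ x ∈ U i, ⟪e i x, du (f i) x⟫_ℝ = 0 ∧ ⟪e i x, du (du (f i)) x⟫_ℝ = 0 ∧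
    ⟪e' i x, du (f i) x⟫_ℝ = 0 ∧ ⟪e' i x, du (du (f i)) x⟫_ℝ = 0
  hW : Gr U ε Θ w 0 1 1 W
  perW : ∀ i, Per (U i) (W i)
  orthW : ∀ i, ∀ x ∈ U i, ∀ t, ⟪W i (x, t), du (f i) x⟫_ℝ = 0 ∧
    ⟪W i (x, t), du (du (f i)) x⟫_ℝ = 0
  meanW : ∀ i, ∀ x ∈ U i, ∀ t, tmean (W i) (x, t) = 0
  meanWW : ∀ i, ∀ x ∈ U i, ∀ t, tmean (fun z => ⟪pu (W i) z, pt (W i) z⟫_ℝ) (x, t) = 0
  normV : ∀ i, ∀ x ∈ U i, ∀ t,
    ‖dv (f i) x + pt (W i) (x, t)‖ ^ 2 = ‖dv (f i) x‖ ^ 2 + a2 i x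
  hc : Gr U ε Θ w 0 1 1 (fun i z => c i z - 1)
  hsh : Gr U ε Θ w 0 1 0 sh
  perc : ∀ i, Per (U i) (c i) ∧ Per (U i) (sh i)
  Vpar : ∀ i, ∀ x ∈ U i, ∀ t,
    ⟪dv (f i) x + pt (W i) (x, t), nPar (e i x) (e' i x) (c i (x, t)) (w i x * sh i (x, t))⟫_ℝ
      = r i x ∧
    ⟪dv (f i) x + pt (W i) (x, t), nPer (e i x) (e' i x) (c i (x, t)) (w i x * sh i (x, t))⟫_ℝ = 0
  hk : ∀ j, Gr U ε Θ w 0 1 0 (k j)
  perk : ∀ j i, Per (U i) (k j i)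
  dualk : ∀ j l : Fin 4, ∀ i, ∀ x ∈ U i, ∀ t,
    tmean (fun z => k j i z *
      ![c i z, sh i z,
        ⟪nPer (e i z.1) (e' i z.1) (c i z) (w i z.1 * sh i z), W i z⟫_ℝ / w i z.1,
        ⟪nPer (e i z.1) (e' i z.1) (c i z) (w i z.1 * sh i z), pu (W i) z⟫_ℝ / w i z.1] l) (x, t)
      = if j = l then 1 else 0

namespace WKB
variable {ι : Type} (D : WKB ι)
def G {F : Type} [NormedAddCommGroup F] [NormedSpace ℝ F] (a b c : ℕ) (f : ι → P3 → F) : Prop :=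
  Gr D.U D.ε D.Θ D.w a b c f
def E1 (Z : ι → P3 → R4) (i : ι) (z : P3) : ℝ :=
  ‖du (D.f i) z.1 + D.ε i • pu (Z i) z‖ ^ 2 - ‖du (D.f i) z.1‖ ^ 2
def E2 (Z : ι → P3 → R4) (i : ι) (z : P3) : ℝ :=
  ⟪du (D.f i) z.1 + D.ε i • pu (Z i) z,
      dv (D.f i) z.1 + D.ε i • pv (Z i) z + pt (Z i) z⟫_ℝ - ⟪du (D.f i) z.1, dv (D.f i) z.1⟫_ℝ
def E3 (Z : ι → P3 → R4) (i : ι) (z : P3) : ℝ :=
  ‖dv (D.f i) z.1 + D.ε i • pv (Z i) z + pt (Z i) z‖ ^ 2 - ‖dv (D.f i) z.1‖ ^ 2 - D.a2 i z.1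
end WKB
end WKB

section Core
/-- input of the core corrugation step, a family that is tame at scale `lam` -/
structure Core (ι : Type) (K : Set Q3) where
  U : ι → Set P2
  lam : ι → ℝ
  f : ι → P2 → R4
  a : ι → P2 → ℝ
  r : ι → P2 → ℝ
  e : ι → P2 → R4
  e' : ι → P2 → R4
  γ1 : ι → P2 → ℝ
  γ2 : ι → P2 → ℝ
  hU : ∀ i, IsOpen (U i)
  hlam : ∀ i, 1 ≤ lam i
  hf : ∀ i, ContDiffOn ℝ ∞ (f i) (U i)
  hA : T (fam2 U lam) (fun i _ => lam i) (fun i => du (f i))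
  hB : T (fam2 U lam) (fun i _ => lam i) (fun i => dv (f i))
  hG : ∀ i, ∀ x ∈ U i, (lam i)⁻¹ ≤ G2 (f i) x
  he : T (fam2 U lam) (fun _ _ => 1) e
  he' : T (fam2 U lam) (fun _ _ => 1) e'
  unit : ∀ i, ∀ x ∈ U i, ‖e i x‖ = 1 ∧ ‖e' i x‖ = 1 ∧ ⟪e i x, e' i x⟫_ℝ = 0
  orth : ∀ i, ∀ x ∈ U i, ⟪e i x, du (f i) x⟫_ℝ = 0 ∧ ⟪e i x, du (du (f i)) x⟫_ℝ = 0 ∧
    ⟪e' i x, du (f i) x⟫_ℝ = 0 ∧ ⟪e' i x, du (du (f i)) x⟫_ℝ = 0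
  ha : LT (fam2 U lam) a
  hr : LT (fam2 U lam) r
  hrl : ∀ i, ∀ x ∈ U i, (lam i)⁻¹ ≤ r i x ∧ r i x ≤ lam i
  hr2 : ∀ i, ∀ x ∈ U i,
    r i x ^ 2 = ⟪dv (f i) x, e i x⟫_ℝ ^ 2 + ⟪dv (f i) x, e' i x⟫_ℝ ^ 2 + a i x ^ 2
  hγ : ∀ i, ∀ x ∈ U i,
    ⟪dv (f i) x, e i x⟫_ℝ = r i x * (1 - (a i x / r i x) ^ 2 * γ2 i x) ∧
    ⟪dv (f i) x, e' i x⟫_ℝ = a i x * γ1 i x
  hK : ∀ i, ∀ x ∈ U i, (a i x / r i x, γ1 i x, γ2 i x) ∈ K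
  hγ1 : T (fam2 U lam) (fun _ _ => 1) γ1
  hγ2 : T (fam2 U lam) (fun _ _ => 1) γ2

/-- the part of `f_v` orthogonal to the frame -/
def Bp (f e e' : P2 → R4) (x : P2) : R4 :=
  dv f x - ⟪dv f x, e x⟫_ℝ • e x - ⟪dv f x, e' x⟫_ℝ • e' x
/-- leading term of the new `v`-derivative at angle `ψ` -/
def Vv (f e e' : P2 → R4) (r : P2 → ℝ) (x : P2) (ψ : ℝ) : R4 :=
  Bp f e e' x + r x • nPar (e x) (e' x) (cos ψ) (sin ψ)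
/-- its `u`-derivative at frozen angle -/
def Xi (f e e' : P2 → R4) (r : P2 → ℝ) (x : P2) (ψ : ℝ) : R4 :=
  du (Bp f e e') x + du r x • nPar (e x) (e' x) (cos ψ) (sin ψ)
    + r x • nPar (du e x) (du e' x) (cos ψ) (sin ψ)

/-- the two-jet of `f + y` at `x` is described by an angle `ψ` and its two rates, up to errors -/
def JetAt (L : ℝ) (f e e' : P2 → R4) (a r : P2 → ℝ) (y : P2 → R4) (x : P2) (μ P : ℝ) : Prop :=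
  ∃ ψ ψ1 s : ℝ, |ψ| ≤ a x / r x * L ∧ |ψ1| ≤ L * |du (fun x => a x / r x) x| + P * |s| ∧
    |ψ1| ≤ P ∧ ‖du y x‖ ≤ P / μ ∧ ‖du (du y) x‖ ≤ P / μ ∧
    ‖dv f x + dv y x - Vv f e e' r x ψ‖ ≤ P / μ ∧
    ‖du (dv f) x + du (dv y) x
      - (Xi f e e' r x ψ + (r x * ψ1) • nPer (e x) (e' x) (cos ψ) (sin ψ))‖ ≤ P / μ ∧
    ‖dv (dv y) x - (μ * r x * s) • nPer (e x) (e' x) (cos ψ) (sin ψ)‖ ≤ P

/-- the metric of `f'` is that of `f` plus `a2 dv ^ 2` up to an error `σ` at `x` -/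
def ErrAt (f f' : P2 → R4) (a2 : ℝ) (x : P2) (σ : ℝ) : Prop :=
  |fE f' x - fE f x| ≤ σ ∧ |fF f' x - fF f x| ≤ σ ∧ |fG f' x - fG f x - a2| ≤ σ
end Core

end Vale.Agent.P205
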